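import Vale.Agent.P246.T.Stmt

/-! # P246: a definition used in the statement -/

namespace Vale.Agent.N246

/-- Some element of finite order of `G` survives under a homomorphism `θ` which maps every
finitely generated subgroup of the derived group of `G` onto a solvable group. -/
def VisibleTorsion (G : Type) [Group G] : Prop :=
  ∃ (g : G) (L : Type) (_ : Group L) (θ : G →* L), IsOfFinOrder g ∧ θ g ≠ 1 ∧
    ∀ S : Finset G, (∀ x ∈ S, x ∈ commutator G) → Group.IsSolvable (Subgroup.closure (θ '' S))

end Vale.Agent.N246
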