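import Vale.Agent.N246.Gap

/-! # P246: a relation gap, and a family of groups without the D(2) property -/

open Topology Set Subgroup

namespace Vale.Agent.N246

open Vale.Agent.P246 Vale.Agent.P246.T Vale.Agent.P246.Dis Vale.Agent.P246.Dis.H52
  Vale.Agent.P246.Q24

theorem lift_of {α : Type} (S : Set (FreeGroup α)) :
    FreeGroup.lift (fun i => (PresentedGroup.of i : PresentedGroup S)) = PresentedGroup.mk S := by
  apply FreeGroup.ext_hom
  intro i
  rw [FreeGroup.lift_apply_of]
  rfl

theorem kerA : (FreeGroup.lift xA).ker = normalClosure wallRels := by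
  apply le_antisymm
  · obtain ⟨θ, h0, h1, h2⟩ := exists_liftA (xW 0) (xW 1) (xW 2) (aux1.1 w2) (aux2.1 w3)
      (by rw [← pow_two, w1])
    have e : θ.comp (FreeGroup.lift xA) = PresentedGroup.mk wallRels := by
      apply FreeGroup.ext_hom
      intro i
      rw [MonoidHom.comp_apply, FreeGroup.lift_apply_of]
      fin_cases i
      · exact h0
      · exact h1
      · exact h2
    intro w hw
    have h3 : PresentedGroup.mk wallRels w = 1 := by
      rw [← e, MonoidHom.comp_apply, MonoidHom.mem_ker.1 hw, map_one]
    exact (QuotientGroup.eq_one_iff w).1 h3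
  · exact normalClosure_le_normal (lift_rels b_sq aba tbt_cube)

theorem ncA : normalClosure (range relA) = normalClosure wallRels := PrA.ker_eq.symm.trans kerA

theorem gapA : relA 2 ∈ normalClosure {relA 0, relA 1} ⊔
    ⁅normalClosure wallRels, normalClosure wallRels⁆ := by
  have h := mem_of_fox PrA (2 : Fin 3) betaA fox2_betaA rfl
  have e : PrA.r '' {j | j ≠ (2 : Fin 3)} = {relA 0, relA 1} := by
    ext w
    constructor
    · rintro ⟨j, hj, rfl⟩
      fin_cases j
      · exact Or.inl rfl
      · exact Or.inr rfl
      · exact absurd rfl hj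
    · rintro (rfl | rfl)
      · exact ⟨(0 : Fin 3), (by decide : (0 : Fin 3) ≠ 2), rfl⟩
      · exact ⟨(1 : Fin 3), (by decide : (1 : Fin 3) ≠ 2), rfl⟩
  rw [e] at h
  rw [← kerA]
  exact h

/-- the relation module is generated by two elements -/
theorem gap_two : normalClosure {relA 0, relA 1} ⊔
    ⁅normalClosure wallRels, normalClosure wallRels⁆ = normalClosure wallRels := by
  apply le_antisymm
  · apply sup_le _ (commutator_le_left _ _)
    rw [← ncA]
    apply normalClosure_mono
    rintro _ (rfl | rfl)
    · exact ⟨0, rfl⟩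
    · exact ⟨1, rfl⟩
  · refine ncA.symm.le.trans (normalClosure_le_normal ?_)
    rintro _ ⟨j, rfl⟩
    fin_cases j
    · exact mem_sup_left (subset_normalClosure (Or.inl rfl))
    · exact mem_sup_left (subset_normalClosure (Or.inr rfl))
    · exact gapA

/-- a presentation from a finite set of relators -/
noncomputable def presOf {G : Type} [Group G] {n : ℕ} (x : Fin n → G)
    (hx : Function.Surjective (FreeGroup.lift x)) (S : Finset (FreeGroup (Fin n)))
    (hS : (FreeGroup.lift x).ker = normalClosure S) : FinPresentation G where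
  gens := n
  rels := S.card
  x := x
  r := fun j => (S.equivFin.symm j : FreeGroup (Fin n))
  surj := hx
  ker_eq := by
    rw [hS]
    congr 1
    ext w
    constructor
    · intro hw
      exact ⟨S.equivFin ⟨w, hw⟩, by simp⟩
    · rintro ⟨j, rfl⟩
      exact (S.equivFin.symm j).2

/-- the relator subgroup needs three normal generators -/
theorem gap_three (S : Finset (FreeGroup (Fin 3)))
    (hS : normalClosure (S : Set (FreeGroup (Fin 3))) = normalClosure wallRels) : 3 ≤ S.card :=
  gens_le core (presOf xA PrA.surj S (kerA.trans hS.symm))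

theorem nc_map {F F' : Type} [Group F] [Group F'] (f : F →* F') (S : Set F) {N : Subgroup F'}
    [N.Normal] (h : f '' S ⊆ N) : normalClosure S ≤ N.comap f :=
  normalClosure_le_normal fun w hw => h ⟨w, hw, rfl⟩

variable {n m : ℕ} (r : Fin m → FreeGroup (Fin (3 + n)))

/-- the relators of the extended presentation -/
abbrev extRels : Set (FreeGroup (Fin (3 + n))) :=
  FreeGroup.map (Fin.castAdd n) '' wallRels ∪ range r

/-- the relators, as a list -/
abbrev extR : Fin (3 + m) → FreeGroup (Fin (3 + n)) :=
  Fin.append (fun j => FreeGroup.map (Fin.castAdd n) (relA j)) r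

theorem extR_left (j : Fin 3) :
    extR r (Fin.castAdd m j) = FreeGroup.map (Fin.castAdd n) (relA j) := Fin.append_left _ _ j

theorem nc_ext : normalClosure (extRels r) = normalClosure (range (extR r)) := by
  apply le_antisymm
  · apply normalClosure_le_normal
    rintro _ (⟨w, hw, rfl⟩ | ⟨j, rfl⟩)
    · refine nc_map (FreeGroup.map (Fin.castAdd n)) (range relA)
        (N := normalClosure (range (extR r))) ?_ (ncA.symm.le (subset_normalClosure hw))
      rintro _ ⟨_, ⟨j, rfl⟩, rfl⟩
      exact subset_normalClosure ⟨Fin.castAdd m j, extR_left r j⟩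
    · exact subset_normalClosure ⟨Fin.natAdd 3 j, Fin.append_right _ _ j⟩
  · apply normalClosure_le_normal
    rintro _ ⟨j, rfl⟩
    induction j using Fin.addCases with
    | left j =>
      rw [extR_left]
      exact nc_map (FreeGroup.map (Fin.castAdd n)) wallRels (N := normalClosure (extRels r))
        (fun w hw => subset_normalClosure (Or.inl hw)) (ncA.le (subset_normalClosure ⟨j, rfl⟩))
    | right j =>
      rw [extR, Fin.append_right]
      exact subset_normalClosure (Or.inr ⟨j, rfl⟩)

theorem ker_ext : (FreeGroup.lift fun i => (PresentedGroup.of i : PresentedGroup (extRels r))).ker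
    = normalClosure (extRels r) := by
  rw [lift_of]
  exact QuotientGroup.ker_mk' _

/-- the extended presentation -/
def PrExt : FinPresentation (PresentedGroup (extRels r)) where
  gens := 3 + n
  rels := 3 + m
  x := fun i => PresentedGroup.of i
  r := extR r
  surj := by
    rw [lift_of]
    exact PresentedGroup.mk_surjective _
  ker_eq := (ker_ext r).trans (nc_ext r)

theorem gapExt : extR r (Fin.castAdd m (2 : Fin 3)) ∈
    normalClosure (extR r '' {j | j ≠ Fin.castAdd m (2 : Fin 3)}) ⊔
      ⁅normalClosure (extRels r), normalClosure (extRels r)⁆ := by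
  have hk : normalClosure wallRels ≤
      (normalClosure (extRels r)).comap (FreeGroup.map (Fin.castAdd n)) :=
    nc_map _ _ fun w hw => subset_normalClosure (Or.inl hw)
  have hle : normalClosure {relA 0, relA 1} ⊔
      ⁅normalClosure wallRels, normalClosure wallRels⁆ ≤
      (normalClosure (extR r '' {j | j ≠ Fin.castAdd m (2 : Fin 3)}) ⊔
        ⁅normalClosure (extRels r), normalClosure (extRels r)⁆).comap
        (FreeGroup.map (Fin.castAdd n)) := by
    apply sup_le
    · apply nc_map
      rintro _ ⟨_, (rfl | rfl), rfl⟩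
      · exact mem_sup_left (subset_normalClosure ⟨Fin.castAdd m (0 : Fin 3),
          fun h => absurd (Fin.castAdd_injective _ _ h) (by decide), extR_left r 0⟩)
      · exact mem_sup_left (subset_normalClosure ⟨Fin.castAdd m (1 : Fin 3),
          fun h => absurd (Fin.castAdd_injective _ _ h) (by decide), extR_left r 1⟩)
    · rw [← map_le_iff_le_comap, Subgroup.map_commutator]
      exact le_sup_of_le_right
        (commutator_mono (map_le_iff_le_comap.2 hk) (map_le_iff_le_comap.2 hk))
  rw [extR_left]
  exact hle gapA

theorem obstrExt (ρ : PresentedGroup (extRels r) →* WallGroup)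
    (hρ : ∀ i, ρ (PresentedGroup.of (Fin.castAdd n i)) = PresentedGroup.of i) :
    VisibleTorsion (PresentedGroup (extRels r)) := by
  obtain ⟨B, _, θ, hb, hθ⟩ := locSolv
  have hx : ∀ r ∈ wallRels, FreeGroup.lift xA r = 1 := lift_rels b_sq aba tbt_cube
  let η : WallGroup →* GA := PresentedGroup.toGroup hx
  have hη : ∀ i, η (PresentedGroup.of i) = xA i := fun i => PresentedGroup.toGroup.of hx
  refine ⟨PresentedGroup.of (Fin.castAdd n 1), B, inferInstance, θ.comp (η.comp ρ),
    isOfFinOrder_iff_pow_eq_one.2 ⟨2, by norm_num, ?_⟩, ?_, fun s hs' => ?_⟩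
  · have h : PresentedGroup.mk (extRels r)
        (FreeGroup.map (Fin.castAdd n) (FreeGroup.of 1 ^ 2)) = 1 :=
      PresentedGroup.one_of_mem (Or.inl ⟨_, by simp [wallRels], rfl⟩)
    rw [map_pow, map_pow, FreeGroup.map.of] at h
    exact h
  · rw [MonoidHom.comp_apply, MonoidHom.comp_apply, hρ, hη]
    exact hb
  · have h := hθ ((η.comp ρ) '' s) (s.finite_toSet.image _) (by
      rintro _ ⟨x, hx, rfl⟩
      exact Abelianization.commutator_subset_ker (phiA.comp (η.comp ρ)) (hs' x hx))
    rwa [Set.image_image] at h

/-- **the family** -/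
theorem family {d : ℕ} (hd : n + 1 = m + d) (ρ : PresentedGroup (extRels r) →* WallGroup)
    (hρ : ∀ i, ρ (PresentedGroup.of (Fin.castAdd n i)) = PresentedGroup.of i)
    (e : Span d (PresentedGroup (extRels r))) :
    ¬ D2Property (PresentedGroup (extRels r)) :=
  criterion e (obstrExt r ρ hρ) (PrExt r) (by change 3 + n + 1 = 3 + m + d; omega)
    (Fin.castAdd m (2 : Fin 3)) (by
      have h := gapExt r
      rw [← ker_ext r] at h
      exact h)

theorem D2_congr {G H : Type} [Group G] [Group H] (φ : G ≃* H) (h : D2Property H) :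
    D2Property G := fun X _ _ _ _ _ x ⟨e⟩ => h X x ⟨e.trans φ⟩

theorem not_wall : ¬ D2Property WallGroup := by
  obtain ⟨φ⟩ := exists_equiv
  exact fun hG => not_d2 core (D2_congr φ hG)

theorem Span.congr {G H : Type} [Group G] [Group H] (φ : G ≃* H) {d : ℕ} (h : Span d H) :
    Span d G := by
  obtain ⟨χ, hχ⟩ := h
  refine ⟨fun k => (χ k).comp φ.toMonoidHom, fun K _ ψ => ?_⟩
  obtain ⟨c, hc⟩ := hχ K (ψ.comp φ.symm.toMonoidHom)
  refine ⟨c, fun g => ?_⟩
  have := hc (φ g)
  simpa using this

theorem Span.coprod {G H : Type} [Group G] [Group H] {d d' : ℕ} (h : Span d G) (h' : Span d' H) :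
    Span (d + d') (Monoid.Coprod G H) := by
  obtain ⟨χ, hχ⟩ := h
  obtain ⟨χ', hχ'⟩ := h'
  refine ⟨Fin.append (fun k => Monoid.Coprod.lift (χ k) 1) (fun k => Monoid.Coprod.lift 1 (χ' k)),
    fun K _ ψ => ?_⟩
  obtain ⟨c, hc⟩ := hχ K (ψ.comp Monoid.Coprod.inl)
  obtain ⟨c', hc'⟩ := hχ' K (ψ.comp Monoid.Coprod.inr)
  refine ⟨Fin.append c c', fun g => ?_⟩
  induction g using Monoid.Coprod.induction_on with
  | inl g =>
    rw [Fin.sum_univ_add]
    simpa using hc g
  | inr g =>
    rw [Fin.sum_univ_add]
    simpa using hc' g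
  | mul x y hx hy =>
    rw [map_mul, toAdd_mul, hx, hy, ← Finset.sum_add_distrib]
    refine Finset.sum_congr rfl fun k _ => ?_
    rw [map_mul, toAdd_mul]
    push_cast
    ring

theorem span_wall : Span 1 WallGroup := by
  obtain ⟨φ⟩ := exists_equiv
  refine Span.congr φ.symm ⟨fun _ => phiA, fun K _ ψ => ⟨fun _ => (ψ (xA 2)).toAdd, fun g => ?_⟩⟩
  rw [hom_factor ψ g, toAdd_zpow, zsmul_eq_mul, mul_comm, Fin.sum_univ_one]

/-- **free products** -/
theorem freeProduct {n m d : ℕ} (q : Fin m → FreeGroup (Fin n)) (hd : n = m + d)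
    (e : Abelianization (PresentedGroup (range q)) ≃* Multiplicative (Fin d → ℤ)) :
    ¬ D2Property (Monoid.Coprod WallGroup (PresentedGroup (range q))) := by
  let r : Fin m → FreeGroup (Fin (3 + n)) := fun j => FreeGroup.map (Fin.natAdd 3) (q j)
  let x : Fin (3 + n) → Monoid.Coprod WallGroup (PresentedGroup (range q)) :=
    Fin.append (fun i => Monoid.Coprod.inl (PresentedGroup.of i))
      (fun i => Monoid.Coprod.inr (PresentedGroup.of i))
  have e1 : (FreeGroup.lift x).comp (FreeGroup.map (Fin.castAdd n)) =
      Monoid.Coprod.inl.comp (PresentedGroup.mk wallRels) := by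
    apply FreeGroup.ext_hom
    intro i
    rw [MonoidHom.comp_apply, FreeGroup.map.of, FreeGroup.lift_apply_of]
    exact Fin.append_left _ _ i
  have e2 : (FreeGroup.lift x).comp (FreeGroup.map (Fin.natAdd 3)) =
      Monoid.Coprod.inr.comp (PresentedGroup.mk (range q)) := by
    apply FreeGroup.ext_hom
    intro i
    rw [MonoidHom.comp_apply, FreeGroup.map.of, FreeGroup.lift_apply_of]
    exact Fin.append_right _ _ i
  have hx : ∀ w ∈ extRels r, FreeGroup.lift x w = 1 := by
    rintro _ (⟨w, hw, rfl⟩ | ⟨j, rfl⟩)
    · rw [← MonoidHom.comp_apply, e1, MonoidHom.comp_apply, PresentedGroup.one_of_mem hw, map_one]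
    · change FreeGroup.lift x (FreeGroup.map (Fin.natAdd 3) (q j)) = 1
      rw [← MonoidHom.comp_apply, e2, MonoidHom.comp_apply,
        PresentedGroup.one_of_mem (mem_range_self j), map_one]
  have key : ∀ {k : ℕ} (f : Fin k → Fin (3 + n)) (w : FreeGroup (Fin k)),
      FreeGroup.lift (fun i => (PresentedGroup.of (f i) : PresentedGroup (extRels r))) w =
        PresentedGroup.mk (extRels r) (FreeGroup.map f w) := by
    intro k f w
    have : FreeGroup.lift (fun i => (PresentedGroup.of (f i) : PresentedGroup (extRels r))) =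
        (PresentedGroup.mk (extRels r)).comp (FreeGroup.map f) := by
      apply FreeGroup.ext_hom
      intro i
      rw [FreeGroup.lift_apply_of, MonoidHom.comp_apply, FreeGroup.map.of]
      rfl
    rw [this]
    rfl
  have h1 : ∀ w ∈ wallRels, FreeGroup.lift
      (fun i => (PresentedGroup.of (Fin.castAdd n i) : PresentedGroup (extRels r))) w = 1 := by
    intro w hw
    rw [key]
    exact PresentedGroup.one_of_mem (Or.inl ⟨w, hw, rfl⟩)
  have h2 : ∀ w ∈ range q, FreeGroup.lift
      (fun i => (PresentedGroup.of (Fin.natAdd 3 i) : PresentedGroup (extRels r))) w = 1 := by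
    rintro _ ⟨j, rfl⟩
    rw [key]
    exact PresentedGroup.one_of_mem (Or.inr ⟨j, rfl⟩)
  have hl : ∀ i, PresentedGroup.toGroup hx (PresentedGroup.of (Fin.castAdd n i)) =
      Monoid.Coprod.inl (PresentedGroup.of i) := fun i =>
    (PresentedGroup.toGroup.of hx).trans (Fin.append_left _ _ i)
  have hr : ∀ i, PresentedGroup.toGroup hx (PresentedGroup.of (Fin.natAdd 3 i)) =
      Monoid.Coprod.inr (PresentedGroup.of i) := fun i =>
    (PresentedGroup.toGroup.of hx).trans (Fin.append_right _ _ i)
  let φ : PresentedGroup (extRels r) ≃* Monoid.Coprod WallGroup (PresentedGroup (range q)) :=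
    MonoidHom.toMulEquiv (PresentedGroup.toGroup hx)
      (Monoid.Coprod.lift (PresentedGroup.toGroup h1) (PresentedGroup.toGroup h2))
      (by
        refine PresentedGroup.ext fun i => ?_
        rw [MonoidHom.comp_apply, MonoidHom.id_apply]
        induction i using Fin.addCases with
        | left i => rw [hl, Monoid.Coprod.lift_apply_inl, PresentedGroup.toGroup.of]
        | right i => rw [hr, Monoid.Coprod.lift_apply_inr, PresentedGroup.toGroup.of])
      (by
        apply Monoid.Coprod.hom_ext
        · refine PresentedGroup.ext fun i => ?_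
          simp only [MonoidHom.comp_apply, MonoidHom.id_apply, Monoid.Coprod.lift_apply_inl,
            PresentedGroup.toGroup.of h1, hl]
        · refine PresentedGroup.ext fun i => ?_
          simp only [MonoidHom.comp_apply, MonoidHom.id_apply, Monoid.Coprod.lift_apply_inr,
            PresentedGroup.toGroup.of h2, hr])
  intro hG
  refine family r (d := 1 + d) (by omega) (Monoid.Coprod.fst.comp (PresentedGroup.toGroup hx))
    (fun i => ?_) (Span.congr φ (span_wall.coprod (span_of_equiv e))) (D2_congr φ hG)
  rw [MonoidHom.comp_apply, hl, Monoid.Coprod.fst_apply_inl]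

/-- the criterion, for a presented group -/
theorem criterion' {n m d : ℕ} (r : Fin m → FreeGroup (Fin n)) (s : FreeGroup (Fin n))
    (hd : n = m + d)
    (hs : s ∈ normalClosure (range r) ⊔
      ⁅normalClosure (insert s (range r)), normalClosure (insert s (range r))⁆)
    (e : Abelianization (PresentedGroup (insert s (range r))) ≃* Multiplicative (Fin d → ℤ))
    (h : VisibleTorsion (PresentedGroup (insert s (range r)))) :
    ¬ D2Property (PresentedGroup (insert s (range r))) := by
  have hk : (FreeGroup.lift fun i =>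
      (PresentedGroup.of i : PresentedGroup (insert s (range r)))).ker =
      normalClosure (insert s (range r)) := by
    rw [lift_of]
    exact QuotientGroup.ker_mk' _
  let P : FinPresentation (PresentedGroup (insert s (range r))) :=
    { gens := n
      rels := m + 1
      x := fun i => PresentedGroup.of i
      r := Fin.cons s r
      surj := by
        rw [lift_of]
        exact PresentedGroup.mk_surjective _
      ker_eq := by rw [hk, Fin.range_cons] }
  refine criterion (span_of_equiv e) h P (by change n + 1 = m + 1 + d; omega)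
    (0 : Fin (m + 1)) ?_
  have e1 : (Fin.cons s r : Fin (m + 1) → FreeGroup (Fin n)) '' {j | j ≠ 0} = range r := by
    ext w
    constructor
    · rintro ⟨j, hj, rfl⟩
      obtain ⟨k, rfl⟩ := Fin.exists_succ_eq.2 hj
      exact ⟨k, rfl⟩
    · rintro ⟨k, rfl⟩
      exact ⟨k.succ, Fin.succ_ne_zero k, rfl⟩
  rw [← hk] at hs
  exact (sup_le_sup_right (normalClosure_mono e1.ge) _) hs

end Vale.Agent.N246
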