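import Vale.Agent.P246.Dis.H52.Fin
import Vale.Agent.P246.Dis.H52.Core
import Vale.Agent.P246.Dis.H52.Grp
import Vale.Agent.N246.Defs

/-! # P246: relation modules, deficiency, and a criterion for the failure of the D(2) property -/

open Topology Set Subgroup

namespace Vale.Agent.N246

open Vale.Agent.P246 Vale.Agent.P246.T Vale.Agent.P246.Dis Vale.Agent.P246.Dis.H52
  Vale.Agent.P246.Q24

variable {G : Type} [Group G]

theorem single_eq (g : G) (n : ℤ) : (MonoidAlgebra.single g n : ZG G) = n • elt g := by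
  rw [elt, MonoidAlgebra.smul_single, smul_eq_mul, mul_one]

theorem fox2_eq (P : FinPresentation G) (β : Fin P.rels → ZG G) :
    fox2 P β = ∑ j, β j • fox P.x (P.r j) :=
  Fintype.linearCombination_apply (ZG G) (fun j => foxWord P.x (P.r j).toWord) β

theorem rel_mem (P : FinPresentation G) (j : Fin P.rels) : P.r j ∈ (FreeGroup.lift P.x).ker := by
  rw [P.ker_eq]
  exact subset_normalClosure ⟨j, rfl⟩

/-- the relation module embeds in the free module on the generators (Magnus) -/
theorem mem_of_fox (P : FinPresentation G) (j0 : Fin P.rels) (β : Fin P.rels → ZG G)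
    (hβ : fox2 P β = 0) (h1 : β j0 = 1) :
    P.r j0 ∈ normalClosure (P.r '' {j | j ≠ j0}) ⊔
      ⁅(FreeGroup.lift P.x).ker, (FreeGroup.lift P.x).ker⁆ := by
  classical
  set π := FreeGroup.lift P.x with hπ
  set N := normalClosure (P.r '' {j | j ≠ j0}) ⊔ ⁅π.ker, π.ker⁆ with hN
  choose σ hσ using P.surj
  have hmem : ∀ (g : G) (w : FreeGroup (Fin P.gens)), σ g * w * (σ (g * π w))⁻¹ ∈ π.ker := by
    intro g w
    rw [MonoidHom.mem_ker, map_mul, map_mul, map_inv, hσ, hσ, mul_inv_cancel]
  let τ : G → FreeGroup (Fin P.gens) → Additive (Abelianization π.ker) := fun g w =>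
    Additive.ofMul (Abelianization.of ⟨_, hmem g w⟩)
  have τmul : ∀ g v w, τ g (v * w) = τ g v + τ (g * π v) w := by
    intro g v w
    change Additive.ofMul _ = Additive.ofMul (Abelianization.of _ * Abelianization.of _)
    rw [← map_mul]
    congr 2
    apply Subtype.ext
    simp only [coe_mul, map_mul, mul_assoc, inv_mul_cancel_left]
  have τone : ∀ g, τ g 1 = 0 := by
    intro g
    have := τmul g 1 1
    rw [mul_one, map_one, mul_one] at this
    exact left_eq_add.1 this
  let D : Fin P.gens → ZG G →+ Additive (Abelianization π.ker) := fun i =>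
    (Finsupp.liftAddHom (fun g => zmultiplesHom _ (τ g (FreeGroup.of i)))).comp
      (MonoidAlgebra.coeffAddEquiv (R := ℤ) (M := G)).toAddMonoidHom
  have hD : ∀ i g, D i (elt g) = τ g (FreeGroup.of i) := by
    intro i g
    change (Finsupp.liftAddHom (fun g => zmultiplesHom _ (τ g (FreeGroup.of i))))
      (Finsupp.single g 1) = _
    rw [Finsupp.liftAddHom_apply_single]
    simp
  let Φ : (Fin P.gens → ZG G) →+ Additive (Abelianization π.ker) :=
    ∑ i, (D i).comp (Pi.evalAddMonoidHom (fun _ => ZG G) i)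
  have hΦ0 : ∀ u, Φ u = ∑ i, D i (u i) := fun u => AddMonoidHom.finsetSum_apply _ _ _
  have hΦ : ∀ w g, Φ (elt g • fox P.x w) = τ g w := by
    have hmul : ∀ v w g, elt g • fox P.x (v * w) =
        elt g • fox P.x v + elt (g * π v) • fox P.x w := by
      intro v w g
      rw [fox_mul, smul_add, ← smul_assoc, smul_eq_mul, Dis.elt_mul_elt]
    intro w
    induction w using FreeGroup.induction_on with
    | C1 => intro g; rw [fox_one, smul_zero, map_zero, τone]
    | of i =>
      intro g
      rw [fox_of, hΦ0, Finset.sum_eq_single i]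
      · rw [Pi.smul_apply, Pi.single_eq_same, smul_eq_mul, mul_one, hD]
      · intro k _ hk
        rw [Pi.smul_apply, Pi.single_eq_of_ne hk, smul_zero, map_zero]
      · intro h
        exact absurd (Finset.mem_univ i) h
    | inv_of i ih =>
      intro g
      have a1 := congrArg Φ (hmul (FreeGroup.of i)⁻¹ (FreeGroup.of i) g)
      have a2 := τmul g (FreeGroup.of i)⁻¹ (FreeGroup.of i)
      rw [inv_mul_cancel, fox_one, smul_zero, map_zero, map_add, ih] at a1
      rw [inv_mul_cancel, τone] at a2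
      exact add_right_cancel (a1.symm.trans a2)
    | mul v w hv hw =>
      intro g
      rw [hmul, map_add, hv, hw, τmul]
  have hNn : N.Normal := by
    rw [hN]
    infer_instance
  let S : AddSubgroup (Additive (Abelianization π.ker)) :=
    ((N.subgroupOf π.ker).map Abelianization.of).toAddSubgroup
  have hS : ∀ j, j ≠ j0 → ∀ a : ZG G, Φ (a • fox P.x (P.r j)) ∈ S := by
    intro j hj a
    induction a using MonoidAlgebra.induction_linear with
    | zero => rw [zero_smul, map_zero]; exact zero_mem _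
    | add a b ha hb => rw [add_smul, map_add]; exact add_mem ha hb
    | single g n =>
      rw [single_eq, smul_assoc, map_zsmul, hΦ]
      apply zsmul_mem
      refine ⟨⟨_, hmem g (P.r j)⟩, ?_, rfl⟩
      change σ g * P.r j * (σ (g * π (P.r j)))⁻¹ ∈ N
      rw [MonoidHom.mem_ker.1 (rel_mem P j), mul_one]
      exact hNn.conj_mem _ (mem_sup_left (subset_normalClosure ⟨j, hj, rfl⟩)) _
  have h2 : τ 1 (P.r j0) ∈ S := by
    rw [fox2_eq, ← Finset.add_sum_erase _ _ (Finset.mem_univ j0), h1] at hβ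
    have h3 := congrArg Φ hβ
    rw [map_add, map_zero, map_sum, ← Dis.elt_one_eq, hΦ] at h3
    rw [eq_neg_of_add_eq_zero_left h3]
    exact neg_mem (sum_mem fun j hj => hS j (Finset.ne_of_mem_erase hj) _)
  obtain ⟨y, hy, hy2⟩ := h2
  have h4 : y⁻¹ * ⟨_, hmem 1 (P.r j0)⟩ ∈ commutator π.ker := QuotientGroup.eq.1 hy2
  have h5 : (y : FreeGroup (Fin P.gens))⁻¹ * (σ 1 * P.r j0 * (σ (1 * π (P.r j0)))⁻¹) ∈ N := by
    apply mem_sup_right
    rw [← Subgroup.map_subtype_commutator]
    exact ⟨_, h4, rfl⟩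
  have h6 := mul_mem (mem_subgroupOf.1 hy) h5
  rw [mul_inv_cancel_left, MonoidHom.mem_ker.1 (rel_mem P j0), mul_one] at h6
  have h7 := hNn.conj_mem _ h6 (σ 1)⁻¹
  simpa [mul_assoc] using h7

/-- the converse -/
theorem fox_of_mem (P : FinPresentation G) (j0 : Fin P.rels)
    (h : P.r j0 ∈ normalClosure (P.r '' {j | j ≠ j0}) ⊔
      ⁅(FreeGroup.lift P.x).ker, (FreeGroup.lift P.x).ker⁆) :
    ∃ β : Fin P.rels → ZG G, fox2 P β = 0 ∧ β j0 = 1 := by
  classical
  let W : Submodule (ZG G) (Fin P.gens → ZG G) :=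
    (LinearMap.ker (LinearMap.proj j0 : (Fin P.rels → ZG G) →ₗ[ZG G] ZG G)).map (fox2 P)
  let N : Subgroup (FreeGroup (Fin P.gens)) :=
    { carrier := {w | FreeGroup.lift P.x w = 1 ∧ fox P.x w ∈ W}
      mul_mem' := by
        rintro v w ⟨h1, h2⟩ ⟨h3, h4⟩
        refine ⟨by rw [map_mul, h1, h3, one_mul], ?_⟩
        rw [fox_mul]
        exact add_mem h2 (Submodule.smul_mem _ _ h4)
      one_mem' := ⟨map_one _, by rw [fox_one]; exact zero_mem _⟩
      inv_mem' := by
        rintro v ⟨h1, h2⟩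
        refine ⟨by rw [map_inv, h1, inv_one], ?_⟩
        rw [fox_inv]
        exact neg_mem (Submodule.smul_mem _ _ h2) }
  have hN : N.Normal := by
    constructor
    rintro w ⟨h1, h2⟩ v
    refine ⟨by rw [map_mul, map_mul, h1, mul_one, map_inv, mul_inv_cancel], ?_⟩
    have h3 : fox P.x (v * w * v⁻¹) = elt (FreeGroup.lift P.x v) • fox P.x w := by
      rw [fox_mul, fox_mul, map_mul, h1, mul_one, fox_inv, smul_neg, ← smul_assoc, smul_eq_mul,
        Dis.elt_mul_elt, mul_inv_cancel, Dis.elt_one_eq, one_smul]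
      abel
    rw [h3]
    exact Submodule.smul_mem _ _ h2
  have hsingle : ∀ j, fox2 P (Pi.single j 1) = fox P.x (P.r j) := by
    intro j
    rw [fox2, lmap, Fintype.linearCombination_apply_single, one_smul]
    rfl
  have hle : normalClosure (P.r '' {j | j ≠ j0}) ⊔
      ⁅(FreeGroup.lift P.x).ker, (FreeGroup.lift P.x).ker⁆ ≤ N := by
    apply sup_le
    · apply normalClosure_le_normal
      rintro _ ⟨j, hj, rfl⟩
      exact ⟨rel_mem P j, Pi.single j 1, Pi.single_eq_of_ne (Ne.symm hj) 1, hsingle j⟩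
    · rw [commutator_le]
      intro a ha b hb
      have ha' : FreeGroup.lift P.x a = 1 := ha
      have hb' : FreeGroup.lift P.x b = 1 := hb
      refine ⟨by rw [map_commutatorElement, ha', commutatorElement_one_left], ?_⟩
      have : fox P.x (a * b * a⁻¹ * b⁻¹) = 0 := by
        rw [fox_mul, fox_mul, fox_mul, fox_inv, fox_inv]
        simp only [map_mul, map_inv, ha', hb', mul_one, inv_one, Dis.elt_one_eq, one_smul]
        abel
      rw [commutatorElement_def, this]
      exact zero_mem _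
  obtain ⟨-, t, ht, ht2⟩ := hle h
  refine ⟨Pi.single j0 1 - t, by rw [map_sub, hsingle, ht2, sub_self], ?_⟩
  have : t j0 = 0 := ht
  rw [Pi.sub_apply, this, Pi.single_eq_same, sub_zero]

/-- the homomorphisms to fields are spanned by `d` homomorphisms to the integers -/
def Span (d : ℕ) (G : Type) [Group G] : Prop :=
  ∃ χ : Fin d → G →* Multiplicative ℤ, ∀ (K : Type) [Field K] (ψ : G →* Multiplicative K),
    ∃ c : Fin d → K, ∀ g, (ψ g).toAdd = ∑ k, c k * ((χ k g).toAdd : ℤ)

theorem span_of_equiv {d : ℕ} (e : Abelianization G ≃* Multiplicative (Fin d → ℤ)) :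
    Span d G := by
  refine ⟨fun k => (AddMonoidHom.toMultiplicative (Pi.evalAddMonoidHom (fun _ => ℤ) k)).comp
    (e.toMonoidHom.comp Abelianization.of), fun K _ ψ => ?_⟩
  let f : (Fin d → ℤ) →+ K :=
    MonoidHom.toAdditive.symm.symm ((Abelianization.lift ψ).comp e.symm.toMonoidHom)
  refine ⟨fun k => f fun j => if k = j then 1 else 0, fun g => ?_⟩
  have h2 := f.toIntLinearMap.pi_apply_eq_sum_univ (e (Abelianization.of g)).toAdd
  have h3 : f.toIntLinearMap (e (Abelianization.of g)).toAdd = (ψ g).toAdd := by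
    change (Abelianization.lift ψ (e.symm (e (Abelianization.of g)))).toAdd = _
    rw [MulEquiv.symm_apply_apply, Abelianization.lift_apply_of]
  rw [← h3, h2]
  refine Finset.sum_congr rfl fun k _ => ?_
  rw [zsmul_eq_mul, mul_comm]
  rfl

theorem indep_d (Q : FinPresentation G) {d : ℕ} (e : Span d G) (K : Type) [Field K] :
    Q.gens ≤ Q.rels + d ∧
      (Q.gens = Q.rels + d → LinearIndependent K (fun j => H538.expMat Q K j)) := by
  obtain ⟨χ, hχ⟩ := e
  let L := (H538.expMat Q K).mulVecLin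
  have hk : Module.finrank K (LinearMap.ker L) ≤ d := by
    have h1 : LinearMap.ker L ≤
        Submodule.span K (range fun k => fun i => (((χ k (Q.x i)).toAdd : ℤ) : K)) := by
      intro v hv
      obtain ⟨ψ, hψ⟩ := H538.exists_hom Q v (LinearMap.mem_ker.1 hv)
      obtain ⟨c, hc⟩ := hχ K ψ
      rw [Submodule.mem_span_range_iff_exists_fun]
      refine ⟨c, ?_⟩
      funext i
      rw [← hψ i, hc, Finset.sum_apply]
      rfl
    refine (Submodule.finrank_mono h1).trans ?_
    exact (finrank_range_le_card _).trans (Fintype.card_fin d).le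
  have hr := L.finrank_range_add_finrank_ker
  rw [Module.finrank_fin_fun] at hr
  have hR : Module.finrank K (LinearMap.range L) ≤ Q.rels := by
    refine (Submodule.finrank_le _).trans ?_
    rw [Module.finrank_fin_fun]
  refine ⟨by omega, fun he => ?_⟩
  rw [linearIndependent_iff_card_eq_finrank_span, Fintype.card_fin]
  have h2 : (H538.expMat Q K).rank = Q.rels := by
    have : (H538.expMat Q K).rank = Module.finrank K (LinearMap.range L) := rfl
    omega
  refine h2.symm.trans ?_
  rw [Matrix.rank_eq_finrank_span_row]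
  rfl

theorem defic {d : ℕ} (e : Span d G) (h : VisibleTorsion G)
    (Q : FinPresentation G) : Q.gens < Q.rels + d := by
  obtain ⟨b, L, _, θ, hb, hθ, hs⟩ := h
  obtain ⟨n, hn, hb⟩ := isOfFinOrder_iff_pow_eq_one.1 hb
  refine lt_of_le_of_ne (indep_d Q e ℚ).1 fun hQ => ?_
  refine hθ (H965.main (FreeGroup.lift Q.x) Q.surj Q.r Q.ker_eq ?_ hn hb θ fun s h1 h2 => ?_)
  · intro p hp
    have : Fact p.Prime := ⟨hp⟩
    exact ind_of_indep Q.r p ((indep_d Q e (ZMod p)).2 hQ)
  · have := hs h1.toFinset fun x hx => h2 x (h1.mem_toFinset.1 hx)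
    rwa [h1.coe_toFinset] at this

theorem no_two_model' {d : ℕ} (hdef : ∀ Q : FinPresentation G, Q.gens < Q.rels + d)
    (X : Type) [TopologicalSpace X] [T2Space X] [CWComplex (univ : Set X)]
    [CWComplex.Finite (univ : Set X)] [ConnectedSpace X] (x : X) (e : FundamentalGroup X x ≃* G)
    (hE : D2Condition X) (hchi : H821.chi X ≤ 1 - d) : ¬ HasFiniteTwoModel X := by
  rintro ⟨Y, _, _, _, hYf, hY2, ⟨h⟩⟩
  have := hYf
  obtain ⟨E, _, p, hp, hsc, -, -⟩ := hE
  obtain ⟨-, -, hlX⟩ := T.CWB.main X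
  have hpX : PathConnectedSpace X := PathConnectedSpace.of_locallyPathConnectedSpace
  have hlE : LocallyPathConnectedSpace E :=
    T.AC.locallyPathConnectedSpace hp.isLocalHomeomorph
  obtain ⟨_, hq⟩ := H87.exists_action' hp x e
  have hc : ContinuousConstSMul G E := hq.toContinuousConstSMul
  obtain ⟨F, _, _, _, q, r, hF, hq', -, -⟩ :=
    H140.exists_cover_of_htpyEquiv ⟨p, hp.continuous⟩ hq h.symm
  have hpF : PathConnectedSpace F := inferInstance
  have hpY : PathConnectedSpace Y := hq'.surjective.pathConnectedSpace q.continuous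
  obtain ⟨y⟩ : Nonempty Y := inferInstance
  obtain ⟨e'⟩ := H285.pi1_equiv hq' y
  obtain ⟨Q, hg, hr⟩ := H87.exists_pres_of_cw hY2 hq'.isCoveringMap y e'
  have h1 := H821.euler_eq X Y ⟨h⟩
  rw [H821.chi_dim_two Y hY2] at h1
  have h4 := hdef Q
  omega

/-- **criterion for the failure of the D(2) property** -/
theorem criterion {d : ℕ} (e : Span d G) (h : VisibleTorsion G)
    (P : FinPresentation G) (hd : P.gens + 1 = P.rels + d) (j0 : Fin P.rels)
    (hj : P.r j0 ∈ normalClosure (P.r '' {j | j ≠ j0}) ⊔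
      ⁅(FreeGroup.lift P.x).ker, (FreeGroup.lift P.x).ker⁆) : ¬ D2Property G := by
  intro hG
  obtain ⟨β, hβ, h1⟩ := fox_of_mem P j0 hj
  obtain ⟨X, _, _, _, hf, hcon, hpi, hD2, ⟨c0⟩, ⟨c1⟩, ⟨c2⟩, ⟨c3⟩, hdim⟩ :=
    blockD G P β (LinearMap.proj j0) hβ h1
  have := hf
  have := hcon
  obtain ⟨x⟩ : Nonempty X := inferInstance
  obtain ⟨e'⟩ := hpi x
  refine no_two_model' (defic e h) X x e' hD2 ?_ (hG X x ⟨e'⟩ hD2)
  have hN : ∀ n ≥ 4, Nat.card (RelCWComplex.cell (univ : Set X) n) = 0 := fun n hn => by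
    have := hdim n (by omega)
    exact Nat.card_of_isEmpty
  rw [H821.chi_eq_sum X hN]
  simp only [Finset.sum_range_succ, Finset.sum_range_zero, Nat.card_congr c0, Nat.card_congr c1,
    Nat.card_congr c2, Nat.card_congr c3, Nat.card_eq_fintype_card, Fintype.card_fin]
  norm_num
  omega

end Vale.Agent.N246
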